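import Vale.Agent.P181.H280.Form

set_option autoImplicit false

namespace Vale.Agent.P181.H627

open Vale.Agent.P181 Vale.Agent.P181.H280

section Alg

variable {A : Type*} [CommRing A] [Algebra ℂ A]

/-- **Lemma R', any algebra, slots of different degrees.** A multilinear form on
`L ^ K 0 × ⋯ × L ^ K (d-1)` with `K i ≥ q (i+1)` that kills the tuples of common multiples of
`l ^ q`, for every `l ∈ L`, is zero. -/
theorem lemmaR_gen (L : Submodule ℂ A) {d q : ℕ} (F : MultilinearMap ℂ (fun _ : Fin d => A) ℂ)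
    (K : Fin d → ℕ) (hK : ∀ i : Fin d, q * ((i : ℕ) + 1) ≤ K i)
    (h : ∀ l ∈ L, ∀ P : Fin d → A, (∀ i, P i ∈ L ^ (K i - q)) → F (fun i => l ^ q * P i) = 0) :
    ∀ P : Fin d → A, (∀ i, P i ∈ L ^ K i) → F P = 0 := by
  apply claimA L F K (fun _ => q) _ h
  intro j
  rw [Finset.sum_const, smul_eq_mul, Fin.card_Iic, mul_comm]
  exact hK j

/-- **Lemma R', any algebra, all slots of the same degree `k + q`.** -/
theorem lemmaR_alg (L : Submodule ℂ A) {d k q : ℕ} (hk : q * (d - 1) ≤ k)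
    (F : MultilinearMap ℂ (fun _ : Fin d => A) ℂ)
    (h : ∀ l ∈ L, ∀ P : Fin d → A, (∀ i, P i ∈ L ^ k) → F (fun i => l ^ q * P i) = 0) :
    ∀ P : Fin d → A, (∀ i, P i ∈ L ^ (k + q)) → F P = 0 := by
  apply lemmaR_gen L (q := q) F (fun _ => k + q)
  · intro i
    have h1 : (i : ℕ) ≤ d - 1 := by omega
    have h2 : q * (i : ℕ) ≤ q * (d - 1) := Nat.mul_le_mul_left q h1
    rw [Nat.mul_add, Nat.mul_one]
    omega
  · intro l hl P hP
    apply h l hl P
    intro i
    have h1 := hP i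
    rwa [Nat.add_sub_cancel] at h1

end Alg

/-- **Lemma R'.** A `d`-linear form on `S^(k+q)`, `k ≥ q (d-1)`, that kills all the tuples of
common multiples of `l ^ q`, for every linear form `l`, is zero. -/
theorem lemmaR {d n k q : ℕ} (hk : q * (d - 1) ≤ k)
    (F : MultilinearMap ℂ (fun _ : Fin d => MvPolynomial (Fin n) ℂ) ℂ)
    (h : ∀ l ∈ linS n, ∀ P : Fin d → MvPolynomial (Fin n) ℂ,
      (∀ i, P i ∈ linS n ^ k) → F (fun i => l ^ q * P i) = 0) :
    ∀ P : Fin d → MvPolynomial (Fin n) ℂ, (∀ i, P i ∈ linS n ^ (k + q)) → F P = 0 :=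
  lemmaR_alg (linS n) hk F h

end Vale.Agent.P181.H627
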